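import Vale.Agent.P122.G813.LocalDef

/-! # P122 / FI-C1b : normalisation of the Hessian, cut-off, Taylor expansion -/

open MeasureTheory Set Filter
open scoped ContDiff Topology

set_option linter.all false

namespace Vale.Agent.P122.G813C

/-- Gram–Schmidt in the plane. -/
theorem exists_normal (B : (ℝ × ℝ) →L[ℝ] (ℝ × ℝ) →L[ℝ] ℝ) (hs : ∀ v w, B v w = B w v)
    (hp : ∀ v : ℝ × ℝ, v ≠ 0 → 0 < B v v) :
    ∃ P : (ℝ × ℝ) ≃L[ℝ] (ℝ × ℝ), ∀ v w, B (P v) (P w) = v.1 * w.1 + v.2 * w.2 := by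
  set a : ℝ × ℝ := (1, 0) with ha
  set b : ℝ × ℝ := (0, 1) with hb
  have ha0 : a ≠ 0 := by
    intro h; have := congrArg Prod.fst h; simp [ha] at this
  have hA : 0 < B a a := hp a ha0
  set w : ℝ × ℝ := b - (B b a / B a a) • a with hw
  have hw0 : w ≠ 0 := by
    intro h; have := congrArg Prod.snd h; simp [hw, ha, hb] at this
  have hW : 0 < B w w := hp w hw0
  have hwa : B w a = 0 := by
    simp only [hw, map_sub, map_smul, ContinuousLinearMap.sub_apply,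
      ContinuousLinearMap.smul_apply, smul_eq_mul]
    field_simp
    ring
  have haw : B a w = 0 := by rw [hs]; exact hwa
  set e₁ : ℝ × ℝ := (Real.sqrt (B a a))⁻¹ • a with he₁
  set e₂ : ℝ × ℝ := (Real.sqrt (B w w))⁻¹ • w with he₂
  have h11 : B e₁ e₁ = 1 := by
    simp only [he₁, map_smul, ContinuousLinearMap.smul_apply, smul_eq_mul]
    have h1 : Real.sqrt (B a a) ≠ 0 := (Real.sqrt_pos.2 hA).ne'
    have h2 : Real.sqrt (B a a) * Real.sqrt (B a a) = B a a := Real.mul_self_sqrt hA.le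
    field_simp
    nlinarith [h2]
  have h22 : B e₂ e₂ = 1 := by
    simp only [he₂, map_smul, ContinuousLinearMap.smul_apply, smul_eq_mul]
    have h1 : Real.sqrt (B w w) ≠ 0 := (Real.sqrt_pos.2 hW).ne'
    have h2 : Real.sqrt (B w w) * Real.sqrt (B w w) = B w w := Real.mul_self_sqrt hW.le
    field_simp
    nlinarith [h2]
  have h12 : B e₁ e₂ = 0 := by
    simp only [he₁, he₂, map_smul, ContinuousLinearMap.smul_apply, smul_eq_mul, haw, mul_zero]
  have h21 : B e₂ e₁ = 0 := by rw [hs]; exact h12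
  set P₀ : (ℝ × ℝ) →ₗ[ℝ] (ℝ × ℝ) :=
    (LinearMap.toSpanSingleton ℝ _ e₁).comp (LinearMap.fst ℝ ℝ ℝ) +
      (LinearMap.toSpanSingleton ℝ _ e₂).comp (LinearMap.snd ℝ ℝ ℝ) with hP₀
  have hP₀a : ∀ v, P₀ v = v.1 • e₁ + v.2 • e₂ := fun v => by simp [hP₀]
  have key : ∀ v w, B (P₀ v) (P₀ w) = v.1 * w.1 + v.2 * w.2 := by
    intro v w
    rw [hP₀a, hP₀a]
    simp only [map_add, map_smul, ContinuousLinearMap.add_apply, ContinuousLinearMap.smul_apply,
      smul_eq_mul, h11, h12, h21, h22]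
    ring
  have hinj : Function.Injective P₀ := by
    rw [injective_iff_map_eq_zero]
    intro v hv
    have h := key v v
    rw [hv] at h
    simp only [map_zero] at h
    have h1 : v.1 = 0 := by nlinarith [mul_self_nonneg v.1, mul_self_nonneg v.2]
    have h2 : v.2 = 0 := by nlinarith [mul_self_nonneg v.1, mul_self_nonneg v.2]
    exact Prod.ext h1 h2
  refine ⟨(LinearEquiv.ofInjectiveEndo P₀ hinj).toContinuousLinearEquiv, fun v w => ?_⟩
  have h1 : ∀ v, (LinearEquiv.ofInjectiveEndo P₀ hinj).toContinuousLinearEquiv v = P₀ v :=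
    fun v => rfl
  rw [h1, h1]
  exact key v w

abbrev E3 := EuclideanSpace ℝ (Fin 3)

/-- The map `P ⊕ id` on `ℝ³`. -/
noncomputable def lift (P : (ℝ × ℝ) ≃L[ℝ] (ℝ × ℝ)) : E3 ≃L[ℝ] E3 :=
  (LinearEquiv.toContinuousLinearEquiv
    { toFun := fun z => !₂[(P (z 0, z 1)).1, (P (z 0, z 1)).2, z 2]
      invFun := fun z => !₂[(P.symm (z 0, z 1)).1, (P.symm (z 0, z 1)).2, z 2]
      map_add' := fun x y => by
        have h : P (x 0 + y 0, x 1 + y 1) = P (x 0, x 1) + P (y 0, y 1) := by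
          rw [← map_add]; rfl
        ext i
        fin_cases i <;> simp [h]
      map_smul' := fun c x => by
        have h : P (c * x 0, c * x 1) = c • P (x 0, x 1) := by
          rw [← map_smul]; rfl
        ext i
        fin_cases i <;> simp [h]
      left_inv := fun x => by
        ext i
        fin_cases i <;> simp
      right_inv := fun x => by
        ext i
        fin_cases i <;> simp })

theorem lift_apply (P : (ℝ × ℝ) ≃L[ℝ] (ℝ × ℝ)) (y : ℝ × ℝ) (t : ℝ) :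
    lift P !₂[y.1, y.2, t] = !₂[(P y).1, (P y).2, t] := by
  ext i
  fin_cases i <;> simp [lift]

/-- Third order Taylor expansion on the unit square. -/
theorem taylor_cube {f : ℝ × ℝ → ℝ} (hf : ContDiff ℝ ∞ f) (h0 : f 0 = 0)
    (h1 : fderiv ℝ f 0 = 0)
    (h2 : ∀ v : ℝ × ℝ, fderiv ℝ (fderiv ℝ f) 0 v v = v.1 * v.1 + v.2 * v.2) (r : ℝ) :
    ∃ C : ℝ, ∀ y ∈ Metric.closedBall (0 : ℝ × ℝ) r,
      |f y - (y.1 ^ 2 + y.2 ^ 2) / 2| ≤ C * ‖y‖ ^ 3 := by
  have hcont : Continuous fun y => ‖iteratedFDeriv ℝ 3 f y‖ :=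
    (hf.continuous_iteratedFDeriv (m := 3) ENat.LEInfty.out).norm
  obtain ⟨M, hM⟩ := (isCompact_closedBall (0 : ℝ × ℝ) r).exists_bound_of_continuousOn
    hcont.continuousOn
  refine ⟨M, fun y hy => ?_⟩
  have hM' : ∀ t ∈ Icc (0:ℝ) 1, ‖iteratedFDeriv ℝ 3 f (t • y)‖ ≤ M := by
    intro t ht
    have : t • y ∈ Metric.closedBall (0 : ℝ × ℝ) r := by
      rw [mem_closedBall_zero_iff] at hy ⊢
      rw [norm_smul, Real.norm_of_nonneg ht.1]
      calc t * ‖y‖ ≤ 1 * ‖y‖ := by gcongr; exact ht.2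
        _ ≤ r := by rwa [one_mul]
    simpa using hM _ this
  have hT := map_add_eq_sum_add_integral_iteratedFDeriv (f := f) (x := 0) (y := y) (n := 2)
    (fun t _ => hf.contDiffAt.of_le (by exact_mod_cast (ENat.LEInfty.out : (3 : ℕ∞ω) ≤ ∞)))
  rw [zero_add] at hT
  simp only [Finset.sum_range_succ, Finset.range_zero, Finset.sum_empty, zero_add] at hT
  have e2 : iteratedFDeriv ℝ 2 f 0 (fun _ => y) = y.1 * y.1 + y.2 * y.2 := by
    rw [iteratedFDeriv_two_apply, h2]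
  have e1 : iteratedFDeriv ℝ 1 f 0 (fun _ => y) = 0 := by
    rw [iteratedFDeriv_one_apply, h1]; simp
  have e0 : iteratedFDeriv ℝ 0 f 0 (fun _ => y) = 0 := by
    rw [iteratedFDeriv_zero_apply, h0]
  rw [e0, e1, e2] at hT
  have hI : ‖∫ t in (0:ℝ)..1, (1 - t) ^ 2 • iteratedFDeriv ℝ (2 + 1) f (t • y) (fun _ => y)‖
      ≤ (M * ‖y‖ ^ 3) * |(1:ℝ) - 0| := by
    refine intervalIntegral.norm_integral_le_of_norm_le_const fun t ht => ?_
    rw [uIoc_of_le zero_le_one] at ht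
    have ht' : t ∈ Icc (0:ℝ) 1 := ⟨ht.1.le, ht.2⟩
    rw [norm_smul]
    have a1 : ‖(1 - t) ^ 2‖ ≤ 1 := by
      rw [Real.norm_of_nonneg (sq_nonneg _)]
      nlinarith [ht'.1, ht'.2]
    have a2 : ‖iteratedFDeriv ℝ (2 + 1) f (t • y) (fun _ => y)‖ ≤ M * ‖y‖ ^ 3 := by
      refine ((iteratedFDeriv ℝ (2 + 1) f (t • y)).le_opNorm _).trans ?_
      simp only [Finset.prod_const, Finset.card_univ, Fintype.card_fin]
      gcongr
      exact hM' t ht'
    calc ‖(1 - t) ^ 2‖ * ‖iteratedFDeriv ℝ (2 + 1) f (t • y) (fun _ => y)‖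
        ≤ 1 * (M * ‖y‖ ^ 3) := by gcongr
      _ = _ := one_mul _
  have hMn : 0 ≤ M * ‖y‖ ^ 3 := by
    have := (norm_nonneg _).trans (hM' 0 ⟨le_rfl, zero_le_one⟩)
    positivity
  rw [hT]
  simp only [Nat.factorial, smul_eq_mul] at *
  rw [Real.norm_eq_abs] at hI
  norm_num at hI ⊢
  set J := ∫ t in (0:ℝ)..1, (1 - t) ^ 2 * (iteratedFDeriv ℝ 3 f (t • y)) fun _ => y with hJ
  have : 1 / 2 * (y.1 * y.1 + y.2 * y.2) + 1 / 2 * J - (y.1 ^ 2 + y.2 ^ 2) / 2 = 1 / 2 * J := by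
    ring
  rw [this, abs_mul]
  norm_num
  linarith


/-- Cut-off: a locally smooth function agrees near the origin with a globally smooth one. -/
theorem exists_cutoff {g : ℝ × ℝ → ℝ} {ρ : ℝ} (hρ : 0 < ρ)
    (hg : ContDiffOn ℝ ∞ g (Metric.ball 0 ρ)) :
    ∃ h : ℝ × ℝ → ℝ, ContDiff ℝ ∞ h ∧ ∃ s : ℝ, 0 < s ∧ ∀ y ∈ Metric.ball (0 : ℝ × ℝ) s, h y = g y := by
  let χ : ContDiffBump (0 : ℝ × ℝ) := ⟨ρ / 4, ρ / 2, by positivity, by linarith⟩
  refine ⟨fun y => χ y * g y, ?_, ρ / 4, by positivity, fun y hy => ?_⟩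
  · rw [contDiff_iff_contDiffAt]
    intro y
    by_cases hy : y ∈ Metric.ball (0 : ℝ × ℝ) ρ
    · exact χ.contDiffAt.mul (hg.contDiffAt (Metric.isOpen_ball.mem_nhds hy))
    · have h1 : y ∉ tsupport (χ : ℝ × ℝ → ℝ) := by
        rw [χ.tsupport_eq, Metric.mem_closedBall]
        rw [Metric.mem_ball] at hy
        have : χ.rOut = ρ / 2 := rfl
        rw [this]
        linarith
      have h2 : (fun y => χ y * g y) =ᶠ[𝓝 y] fun _ => 0 := by
        have := notMem_tsupport_iff_eventuallyEq.1 h1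
        filter_upwards [this] with z hz
        rw [hz]; simp
      exact contDiffAt_const.congr_of_eventuallyEq h2
  · have : χ y = 1 := χ.one_of_mem_closedBall (Metric.ball_subset_closedBall hy)
    simp [this]

open Vale.Agent.P122.FI in
theorem chart_of_local (H : LOCALGRAPH) : CHART := by
  intro S hS q hq
  obtain ⟨B, g, ρ, hρ, hg, hg0, hg1, hg2, hV⟩ := H S hS q hq
  have hgat : ContDiffAt ℝ ∞ g 0 := hg.contDiffAt (Metric.ball_mem_nhds 0 hρ)
  have hsymm : ∀ v w, fderiv ℝ (fderiv ℝ g) 0 v w = fderiv ℝ (fderiv ℝ g) 0 w v := by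
    have := hgat.isSymmSndFDerivAt (by simp; exact ENat.LEInfty.out)
    exact fun v w => this v w
  obtain ⟨P, hP⟩ := exists_normal (fderiv ℝ (fderiv ℝ g) 0) hsymm hg2
  -- the composed function
  have hg2' : ContDiffOn ℝ ∞ (g ∘ P) (P ⁻¹' Metric.ball 0 ρ) :=
    hg.comp P.contDiff.contDiffOn (fun y hy => hy)
  obtain ⟨ρ', hρ', hsub⟩ : ∃ ρ' : ℝ, 0 < ρ' ∧ Metric.ball (0 : ℝ × ℝ) ρ' ⊆ P ⁻¹' Metric.ball 0 ρ := by
    have : P ⁻¹' Metric.ball 0 ρ ∈ 𝓝 (0 : ℝ × ℝ) :=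
      P.continuous.continuousAt.preimage_mem_nhds (by
        rw [map_zero]; exact Metric.ball_mem_nhds 0 hρ)
    exact Metric.mem_nhds_iff.1 this
  obtain ⟨h, hh, s, hs, hhg⟩ := exists_cutoff hρ' (hg2'.mono hsub)
  have heq : h =ᶠ[𝓝 0] g ∘ P := by
    filter_upwards [Metric.ball_mem_nhds (0 : ℝ × ℝ) hs] with y hy using hhg y hy
  have hh0 : h 0 = 0 := by
    rw [heq.self_of_nhds]; simp [hg0]
  have hd : ∀ᶠ y in 𝓝 (0 : ℝ × ℝ), fderiv ℝ h y = (fderiv ℝ g (P y)).comp (P : (ℝ × ℝ) →L[ℝ] (ℝ × ℝ)) := by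
    filter_upwards [heq.eventuallyEq_nhds,
      Metric.ball_mem_nhds (0 : ℝ × ℝ) hρ'] with y hy hy'
    rw [hy.fderiv_eq]
    have h1 : DifferentiableAt ℝ g (P y) :=
      (hg.contDiffAt (Metric.isOpen_ball.mem_nhds (hsub hy'))).differentiableAt (by simp)
    rw [fderiv_comp y h1 P.differentiableAt]
    congr 1
    exact P.fderiv
  have hh1 : fderiv ℝ h 0 = 0 := by
    rw [hd.self_of_nhds, map_zero, hg1]; simp
  have hh2 : ∀ v : ℝ × ℝ, fderiv ℝ (fderiv ℝ h) 0 v v = v.1 * v.1 + v.2 * v.2 := by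
    intro v
    have e1 : fderiv ℝ (fderiv ℝ h) 0 = fderiv ℝ
        (fun y => (fderiv ℝ g (P y)).comp (P : (ℝ × ℝ) →L[ℝ] (ℝ × ℝ))) 0 :=
      Filter.EventuallyEq.fderiv_eq hd
    have h1 : DifferentiableAt ℝ (fderiv ℝ g) (P 0) := by
      rw [map_zero]
      exact (hgat.fderiv_right (m := 1) (by exact_mod_cast (ENat.LEInfty.out : (2 : ℕ∞ω) ≤ ∞))).differentiableAt
        (by simp)
    have h2 : HasFDerivAt (fun y => fderiv ℝ g (P y))
        ((fderiv ℝ (fderiv ℝ g) (P 0)).comp (P : (ℝ × ℝ) →L[ℝ] (ℝ × ℝ))) 0 :=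
      h1.hasFDerivAt.comp 0 P.hasFDerivAt
    have h3 : HasFDerivAt (fun y => (fderiv ℝ g (P y)).comp (P : (ℝ × ℝ) →L[ℝ] (ℝ × ℝ)))
        (((ContinuousLinearMap.compL ℝ (ℝ × ℝ) (ℝ × ℝ) ℝ).flip
          (P : (ℝ × ℝ) →L[ℝ] (ℝ × ℝ))).comp
          ((fderiv ℝ (fderiv ℝ g) (P 0)).comp (P : (ℝ × ℝ) →L[ℝ] (ℝ × ℝ)))) 0 :=
      (((ContinuousLinearMap.compL ℝ (ℝ × ℝ) (ℝ × ℝ) ℝ).flip
          (P : (ℝ × ℝ) →L[ℝ] (ℝ × ℝ))).hasFDerivAt).comp 0 h2
    rw [e1, h3.fderiv, map_zero]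
    have := hP v v
    simpa using this
  obtain ⟨C, hC⟩ := taylor_cube hh hh0 hh1 hh2 1
  refine ⟨(lift P).trans B, h, ⟨hh, |C|, fun y hy => ?_⟩, fun r hr => ?_⟩
  · have hy' : y ∈ Metric.closedBall (0 : ℝ × ℝ) 1 := by
      rw [mem_closedBall_zero_iff, Prod.norm_def, max_le_iff, Real.norm_eq_abs, Real.norm_eq_abs,
        abs_le, abs_le]
      exact ⟨⟨hy.1.1, hy.1.2⟩, ⟨hy.2.1, hy.2.2⟩⟩
    refine (hC y hy').trans ?_
    have hn : ‖y‖ ≤ |y.1| + |y.2| := by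
      rw [Prod.norm_def, Real.norm_eq_abs, Real.norm_eq_abs]
      exact max_le (by linarith [abs_nonneg y.2]) (by linarith [abs_nonneg y.1])
    calc C * ‖y‖ ^ 3 ≤ |C| * ‖y‖ ^ 3 := by gcongr; exact le_abs_self C
      _ ≤ |C| * (|y.1| + |y.2|) ^ 3 := by gcongr
  · -- small squares
    obtain ⟨r', hr', hsub'⟩ : ∃ r' : ℝ, 0 < r' ∧ ∀ u ∈ sq r', P.symm u ∈ sq r ∧
        P.symm u ∈ Metric.ball (0 : ℝ × ℝ) s := by
      have h1 : P.symm ⁻¹' (Metric.ball (0 : ℝ × ℝ) (min r s)) ∈ 𝓝 (0 : ℝ × ℝ) :=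
        P.symm.continuous.continuousAt.preimage_mem_nhds (by
          rw [map_zero]; exact Metric.ball_mem_nhds 0 (lt_min hr hs))
      obtain ⟨δ, hδ, hδs⟩ := Metric.mem_nhds_iff.1 h1
      refine ⟨δ / 2, by positivity, fun u hu => ?_⟩
      have hu' : u ∈ Metric.ball (0 : ℝ × ℝ) δ := by
        rw [mem_ball_zero_iff, Prod.norm_def, max_lt_iff, Real.norm_eq_abs, Real.norm_eq_abs]
        constructor
        · have := abs_le.2 ⟨hu.1.1, hu.1.2⟩; linarith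
        · have := abs_le.2 ⟨hu.2.1, hu.2.2⟩; linarith
      have h2 := hδs hu'
      rw [mem_preimage, mem_ball_zero_iff, Prod.norm_def, Real.norm_eq_abs, Real.norm_eq_abs] at h2
      have h3 := (max_lt_iff.1 h2)
      constructor
      · have a1 := (lt_min_iff.1 h3.1).1
        have a2 := (lt_min_iff.1 h3.2).1
        exact ⟨abs_le.1 a1.le, abs_le.1 a2.le⟩
      · rw [mem_ball_zero_iff, Prod.norm_def, Real.norm_eq_abs, Real.norm_eq_abs]
        exact max_lt (lt_min_iff.1 h3.1).2 (lt_min_iff.1 h3.2).2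
    obtain ⟨V, hVo, hqV, hVS⟩ := hV r' hr'
    refine ⟨V, hVo, hqV, fun ξ hξ => ?_⟩
    obtain ⟨u, hu, hξu⟩ := hVS ξ hξ
    refine ⟨P.symm u, (hsub' u hu).1, ?_⟩
    rw [hξu]
    have h1 : h (P.symm u) = g u := by
      rw [hhg _ (hsub' u hu).2]; simp
    have h2 : gr h (P.symm u) = !₂[(P.symm u).1, (P.symm u).2, g u] := by
      rw [gr, h1]
    rw [h2, ContinuousLinearEquiv.trans_apply]
    have h3 := lift_apply P (P.symm u) (g u)
    rw [ContinuousLinearEquiv.apply_symm_apply] at h3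
    rw [h3]

end Vale.Agent.P122.G813C
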