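import Vale.Agent.P122.G813.Stmt

/-!
# Elementary stability properties of the extension bound
-/

namespace Vale.Agent.P122.G813

open MeasureTheory Set Filter
open scoped ENNReal NNReal ContDiff RealInnerProductSpace

/-- The bound for Borel measurable data. -/
theorem ExtBound.of_measurable {σ : Measure E3} {p : ℝ}
    (H : ∃ C : ℝ≥0, ∀ f : E3 → ℂ, Measurable f → MemLp f (ENNReal.ofReal p) σ →
      eLpNorm (extension σ f) (ENNReal.ofReal p) volume ≤ C * eLpNorm f (ENNReal.ofReal p) σ) :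
    ExtBound σ p := by
  obtain ⟨C, hC⟩ := H
  refine ⟨C, fun f hf => ?_⟩
  obtain ⟨g, hg, hfg⟩ := hf.1
  have e1 : extension σ f = extension σ g := by
    funext x
    refine integral_congr_ae ?_
    filter_upwards [hfg] with ξ hξ
    rw [hξ]
  rw [e1, eLpNorm_congr_ae hfg]
  exact hC g hg.measurable ((memLp_congr_ae hfg).1 hf)

theorem norm_char (a : ℝ) : ‖Complex.exp (2 * Real.pi * Complex.I * (a : ℝ))‖ = 1 := by
  have : (2 * Real.pi * Complex.I * (a : ℝ) : ℂ) = ((2 * Real.pi * a : ℝ) : ℂ) * Complex.I := by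
    push_cast; ring
  rw [this, Complex.norm_exp_ofReal_mul_I]

theorem measurable_char (x : E3) :
    Measurable fun ξ : E3 => Complex.exp (2 * Real.pi * Complex.I * (⟪x, ξ⟫ : ℝ)) := by
  have : Continuous fun ξ : E3 => Complex.exp (2 * Real.pi * Complex.I * (⟪x, ξ⟫ : ℝ)) := by
    fun_prop
  exact this.measurable

theorem stronglyMeasurable_extension {σ : Measure E3} [SFinite σ] {f : E3 → ℂ}
    (hf : Measurable f) : StronglyMeasurable (extension σ f) := by
  unfold extension
  refine StronglyMeasurable.integral_prod_right (f := fun (x ξ : E3) =>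
    f ξ * Complex.exp (2 * Real.pi * Complex.I * (⟪x, ξ⟫ : ℝ))) ?_
  refine Measurable.stronglyMeasurable ?_
  have h1 : Continuous fun z : E3 × E3 =>
      Complex.exp (2 * Real.pi * Complex.I * (⟪z.1, z.2⟫ : ℝ)) := by
    fun_prop
  exact (hf.comp measurable_snd).mul h1.measurable

theorem integrable_mul_char {σ : Measure E3} [IsFiniteMeasure σ] {f : E3 → ℂ} {p : ℝ}
    (hp : 1 ≤ p) (hf : MemLp f (ENNReal.ofReal p) σ) (x : E3) :
    Integrable (fun ξ => f ξ * Complex.exp (2 * Real.pi * Complex.I * (⟪x, ξ⟫ : ℝ))) σ := by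
  have h1 : Integrable f σ := hf.integrable (by
    rw [← ENNReal.ofReal_one]; exact ENNReal.ofReal_le_ofReal hp)
  refine h1.mul_bdd (c := 1) (measurable_char x).aestronglyMeasurable ?_
  exact Eventually.of_forall fun ξ => (norm_char _).le

/-- The extension operator of a sum of measures. -/
theorem extension_add {σ τ : Measure E3} [IsFiniteMeasure σ] [IsFiniteMeasure τ] {f : E3 → ℂ}
    {p : ℝ} (hp : 1 ≤ p) (hσ : MemLp f (ENNReal.ofReal p) σ) (hτ : MemLp f (ENNReal.ofReal p) τ) :
    extension (σ + τ) f = extension σ f + extension τ f := by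
  funext x
  exact integral_add_measure (integrable_mul_char hp hσ x) (integrable_mul_char hp hτ x)

theorem ExtBound.zero {p : ℝ} : ExtBound (0 : Measure E3) p := by
  refine ⟨0, fun f _ => ?_⟩
  have : extension (0 : Measure E3) f = 0 := by
    funext x; simp [extension]
  rw [this]; simp

theorem ExtBound.add {σ τ : Measure E3} [IsFiniteMeasure σ] [IsFiniteMeasure τ] {p : ℝ}
    (hp : 1 ≤ p) (hσ : ExtBound σ p) (hτ : ExtBound τ p) : ExtBound (σ + τ) p := by
  obtain ⟨C, hC⟩ := hσ
  obtain ⟨D, hD⟩ := hτ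
  refine ExtBound.of_measurable ⟨C + D, fun f hf hfp => ?_⟩
  have h1 : MemLp f (ENNReal.ofReal p) σ := hfp.mono_measure (Measure.le_add_right le_rfl)
  have h2 : MemLp f (ENNReal.ofReal p) τ := hfp.mono_measure (Measure.le_add_left le_rfl)
  rw [extension_add hp h1 h2]
  have hp' : 1 ≤ ENNReal.ofReal p := by
    rw [← ENNReal.ofReal_one]; exact ENNReal.ofReal_le_ofReal hp
  refine (eLpNorm_add_le (stronglyMeasurable_extension hf).aestronglyMeasurable
    (stronglyMeasurable_extension hf).aestronglyMeasurable hp').trans ?_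
  rw [ENNReal.coe_add, add_mul]
  refine add_le_add ((hC f h1).trans ?_) ((hD f h2).trans ?_)
  · gcongr
    exact Measure.le_add_right le_rfl
  · gcongr
    exact Measure.le_add_left le_rfl

theorem ExtBound.finsetSum {ι : Type*} {p : ℝ} (hp : 1 ≤ p) (s : Finset ι) (σ : ι → Measure E3)
    (hfin : ∀ i, IsFiniteMeasure (σ i)) (H : ∀ i ∈ s, ExtBound (σ i) p) :
    ExtBound (∑ i ∈ s, σ i) p := by
  classical
  induction s using Finset.induction_on with
  | empty => simpa using ExtBound.zero
  | insert a s ha ih =>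
    rw [Finset.sum_insert ha]
    have : IsFiniteMeasure (∑ i ∈ s, σ i) := by
      refine ⟨?_⟩
      rw [Measure.finsetSum_apply]
      exact ENNReal.sum_lt_top.2 fun i _ => (hfin i).measure_univ_lt_top
    exact ExtBound.add hp (H a (Finset.mem_insert_self a s))
      (ih fun i hi => H i (Finset.mem_insert_of_mem hi))

/-- Scaling of the measure. -/
theorem ExtBound.smul {σ : Measure E3} {p : ℝ} (hp : 1 ≤ p) (hσ : ExtBound σ p) (M : ℝ≥0) :
    ExtBound (M • σ) p := by
  rcases eq_or_ne M 0 with rfl | hM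
  · simpa using ExtBound.zero
  obtain ⟨C, hC⟩ := hσ
  have hp0 : (0:ℝ) < p := by linarith
  refine ⟨M * C * (M⁻¹) ^ (1 / p), fun f hf => ?_⟩
  have hσM : σ = M⁻¹ • (M • σ) := by
    rw [smul_smul, inv_mul_cancel₀ hM, one_smul]
  have hf' : MemLp f (ENNReal.ofReal p) σ := by
    rw [hσM]
    exact hf.smul_measure (c := (M⁻¹ : ℝ≥0)) (by simp)
  have e1 : extension (M • σ) f = (M : ℂ) • extension σ f := by
    funext x
    simp only [extension, Pi.smul_apply]
    rw [integral_smul_nnreal_measure]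
    rfl
  have e2 : eLpNorm f (ENNReal.ofReal p) σ
      = (M⁻¹ : ℝ≥0) ^ (1 / p) • eLpNorm f (ENNReal.ofReal p) (M • σ) := by
    conv_lhs => rw [hσM]
    rw [eLpNorm_smul_measure_of_ne_top' (by simp)]
    congr 2
    rw [ENNReal.toReal_ofReal hp0.le, one_div]
  rw [e1, eLpNorm_const_smul]
  calc ‖(M : ℂ)‖ₑ * eLpNorm (extension σ f) (ENNReal.ofReal p) volume
      ≤ M * (C * eLpNorm f (ENNReal.ofReal p) σ) := by
        gcongr
        · rw [enorm_eq_nnnorm]
          simp
        · exact hC f hf'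
    _ = _ := by
        rw [e2, ENNReal.smul_def, smul_eq_mul]
        push_cast
        ring

/-- The bound is inherited by smaller measures. -/
theorem ExtBound.mono {σ τ : Measure E3} [IsFiniteMeasure σ] {p : ℝ} (hp : 1 ≤ p)
    (hσ : ExtBound σ p) (hτσ : τ ≤ σ) : ExtBound τ p := by
  have hfin : IsFiniteMeasure τ := isFiniteMeasure_of_le σ hτσ
  have hp0 : (0:ℝ) < p := by linarith
  obtain ⟨C, hC⟩ := hσ
  have hac : τ ≪ σ := Measure.absolutelyContinuous_of_le hτσ
  set ρ : E3 → ℝ≥0∞ := τ.rnDeriv σ with hρ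
  have hρm : Measurable ρ := Measure.measurable_rnDeriv _ _
  have hρ1 : ρ ≤ᵐ[σ] 1 := Measure.rnDeriv_le_one_of_le hτσ
  set θ : E3 → ℝ≥0 := fun x => (ρ x).toNNReal with hθ
  have hθm : Measurable θ := hρm.ennreal_toNNReal
  have hτ : τ = σ.withDensity fun x => (θ x : ℝ≥0∞) := by
    have : τ.HaveLebesgueDecomposition σ :=
      Measure.haveLebesgueDecomposition_of_sigmaFinite τ σ
    refine (Measure.withDensity_rnDeriv_eq τ σ hac).symm.trans (withDensity_congr_ae ?_)
    filter_upwards [hρ1] with x hx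
    have : ρ x ≠ ⊤ := ne_top_of_le_ne_top (by simp) hx
    exact (ENNReal.coe_toNNReal this).symm
  refine ExtBound.of_measurable ⟨C, fun f hf hfp => ?_⟩
  have e1 : extension τ f = extension σ (fun ξ => (θ ξ : ℂ) * f ξ) := by
    funext x
    simp only [extension]
    rw [hτ, integral_withDensity_eq_integral_smul hθm]
    refine integral_congr_ae (Eventually.of_forall fun ξ => ?_)
    simp only [NNReal.smul_def, Complex.real_smul]
    exact (mul_assoc _ _ _).symm
  have hle : eLpNorm (fun ξ => (θ ξ : ℂ) * f ξ) (ENNReal.ofReal p) σ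
      ≤ eLpNorm f (ENNReal.ofReal p) τ := by
    rw [eLpNorm_eq_lintegral_rpow_enorm_toReal (by simpa using hp0) (by simp),
      eLpNorm_eq_lintegral_rpow_enorm_toReal (by simpa using hp0) (by simp)]
    refine ENNReal.rpow_le_rpow ?_ (by positivity)
    rw [hτ, lintegral_withDensity_eq_lintegral_mul _ hθm.coe_nnreal_ennreal (by fun_prop)]
    refine lintegral_mono_ae ?_
    filter_upwards [hρ1] with ξ hξ
    have h1 : θ ξ ≤ 1 := by
      have : (ρ ξ).toNNReal ≤ (1 : ℝ≥0∞).toNNReal := ENNReal.toNNReal_mono (by simp) hξ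
      simpa using this
    rw [ENNReal.toReal_ofReal hp0.le, enorm_mul, ENNReal.mul_rpow_of_nonneg _ _ hp0.le,
      Pi.mul_apply]
    gcongr
    have h2 : ‖(θ ξ : ℂ)‖ₑ = (θ ξ : ℝ≥0∞) := by
      rw [enorm_eq_nnnorm]; simp
    rw [h2]
    calc (θ ξ : ℝ≥0∞) ^ p ≤ (θ ξ : ℝ≥0∞) ^ (1 : ℝ) :=
          ENNReal.rpow_le_rpow_of_exponent_ge (by exact_mod_cast h1) hp
      _ = θ ξ := by simp
  have hmem : MemLp (fun ξ => (θ ξ : ℂ) * f ξ) (ENNReal.ofReal p) σ := by
    refine ⟨?_, hle.trans_lt hfp.2⟩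
    have : Measurable fun ξ => (θ ξ : ℂ) * f ξ := by
      refine Measurable.mul ?_ hf
      exact Complex.measurable_ofReal.comp (hθm.coe_nnreal_real)
    exact this.aestronglyMeasurable
  rw [e1]
  refine (hC _ hmem).trans ?_
  gcongr

/-- The bound is invariant under affine isomorphisms. -/
theorem ExtBound.map_affine {σ : Measure E3} {p : ℝ} (hp : 1 ≤ p) (hσ : ExtBound σ p)
    (L : E3 ≃L[ℝ] E3) (b : E3) : ExtBound (σ.map fun ξ => L ξ + b) p := by
  obtain ⟨C, hC⟩ := hσ
  have hp0 : (0:ℝ) < p := by linarith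
  set A : E3 → E3 := fun ξ => L ξ + b with hA
  have hAe : MeasurableEmbedding A := by
    have : A = (L.toHomeomorph.trans (Homeomorph.addRight b)) := by
      funext ξ; simp [hA]
    rw [this]
    exact Homeomorph.measurableEmbedding _
  -- the adjoint as an isomorphism
  set T : E3 ≃L[ℝ] E3 := ContinuousLinearEquiv.equivOfInverse
    (ContinuousLinearMap.adjoint (L : E3 →L[ℝ] E3))
    (ContinuousLinearMap.adjoint (L.symm : E3 →L[ℝ] E3))
    (fun x => by
      refine ext_inner_right ℝ fun y => ?_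
      rw [ContinuousLinearMap.adjoint_inner_left, ContinuousLinearMap.adjoint_inner_left]
      simp)
    (fun x => by
      refine ext_inner_right ℝ fun y => ?_
      rw [ContinuousLinearMap.adjoint_inner_left, ContinuousLinearMap.adjoint_inner_left]
      simp) with hT
  have hTL : ∀ x ξ : E3, ⟪x, L ξ⟫ = ⟪T x, ξ⟫ := fun x ξ => by
    have : T x = ContinuousLinearMap.adjoint (L : E3 →L[ℝ] E3) x := rfl
    rw [this, ContinuousLinearMap.adjoint_inner_left]; rfl
  have hdet : LinearMap.det (T : E3 →ₗ[ℝ] E3) ≠ 0 := by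
    exact (LinearEquiv.isUnit_det' T.toLinearEquiv).ne_zero
  set c : ℝ≥0∞ := ENNReal.ofReal |(LinearMap.det (T : E3 →ₗ[ℝ] E3))⁻¹| with hc
  have hvol : (volume : Measure E3).map T = c • volume :=
    Measure.map_linearMap_addHaar_eq_smul_addHaar volume hdet
  have hTe : MeasurableEmbedding T := T.toHomeomorph.measurableEmbedding
  refine ⟨C * (c ^ (1 / p)).toNNReal, fun f hf => ?_⟩
  have hf' : MemLp (f ∘ A) (ENNReal.ofReal p) σ := hAe.memLp_map_measure_iff.1 hf
  have e1 : ∀ x, extension (σ.map A) f x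
      = Complex.exp (2 * Real.pi * Complex.I * (⟪x, b⟫ : ℝ)) * extension σ (f ∘ A) (T x) := by
    intro x
    simp only [extension]
    rw [hAe.integral_map, ← integral_const_mul]
    refine integral_congr_ae (Eventually.of_forall fun ξ => ?_)
    simp only [Function.comp_apply, hA]
    rw [inner_add_right, hTL]
    push_cast
    rw [mul_add, Complex.exp_add]
    ring
  have e2 : eLpNorm (extension (σ.map A) f) (ENNReal.ofReal p) volume
      = eLpNorm (extension σ (f ∘ A) ∘ T) (ENNReal.ofReal p) volume := by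
    refine eLpNorm_congr_norm_ae (Eventually.of_forall fun x => ?_)
    rw [e1, norm_mul, norm_char, one_mul]
    rfl
  rw [e2, ← hTe.eLpNorm_map_measure, hvol, eLpNorm_smul_measure_of_ne_top (by simp),
    hAe.eLpNorm_map_measure, smul_eq_mul]
  have hcp : (c ^ (1 / ENNReal.ofReal p).toReal) = ((c ^ (1 / p)).toNNReal : ℝ≥0∞) := by
    rw [ENNReal.coe_toNNReal (ENNReal.rpow_ne_top_of_nonneg (by positivity) (by simp [hc]))]
    congr 1
    rw [one_div, ENNReal.toReal_inv, ENNReal.toReal_ofReal hp0.le, one_div]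
  rw [hcp, ENNReal.coe_mul, mul_comm (C : ℝ≥0∞), mul_assoc]
  gcongr
  exact hC _ hf'

end Vale.Agent.P122.G813
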