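import Vale.Agent.P122.FI.Defs

/-! # P122 / FI-C1a : the local graph form before normalisation of the Hessian -/

open MeasureTheory Complex Set
open scoped ENNReal NNReal ContDiff

namespace Vale.Agent.P122.FI

/-- [FI-C1a] local graph form of a positively curved surface, Hessian not yet normalised -/
def LOCALGRAPH : Prop := ∀ S : Set E3, PosCurved S → ∀ q ∈ S,
  ∃ (B : E3 ≃L[ℝ] E3) (g : ℝ × ℝ → ℝ) (ρ : ℝ), 0 < ρ ∧ ContDiffOn ℝ ∞ g (Metric.ball 0 ρ) ∧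
    g 0 = 0 ∧ fderiv ℝ g 0 = 0 ∧ (∀ v : ℝ × ℝ, v ≠ 0 → 0 < fderiv ℝ (fderiv ℝ g) 0 v v) ∧
    ∀ r : ℝ, 0 < r → ∃ V : Set E3, IsOpen V ∧ q ∈ V ∧
      ∀ ξ ∈ S ∩ V, ∃ u ∈ sq r, ξ = q + B !₂[u.1, u.2, g u]

end Vale.Agent.P122.FI
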