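import Mathlib

/-!
# Fourier extension from positively curved surfaces: statement
-/

namespace Vale.Agent.P122.G813

open MeasureTheory Set
open scoped ENNReal NNReal ContDiff RealInnerProductSpace

/-- Euclidean three-space. -/
abbrev E3 : Type := EuclideanSpace ℝ (Fin 3)

/-- `S` is a smooth embedded surface in `ℝ³` with definite second fundamental form: near each of
its points `x` it is the zero set of a smooth function `F` with nonvanishing derivative at `x`, and
the Hessian of `F` at `x` is (positive or negative) definite on the tangent plane `ker DF(x)`. -/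
def PosCurved (S : Set E3) : Prop :=
  ∀ x ∈ S, ∃ U : Set E3, IsOpen U ∧ x ∈ U ∧ ∃ F : E3 → ℝ, ContDiffOn ℝ ∞ F U ∧
    S ∩ U = {y ∈ U | F y = 0} ∧ fderiv ℝ F x ≠ 0 ∧
    ((∀ v, fderiv ℝ F x v = 0 → v ≠ 0 → 0 < fderiv ℝ (fderiv ℝ F) x v v) ∨
      (∀ v, fderiv ℝ F x v = 0 → v ≠ 0 → fderiv ℝ (fderiv ℝ F) x v v < 0))

/-- The surface measure on a subset `Σ` of a surface: the two-dimensional Hausdorff measure,
normalised so that a planar unit square has measure one (Mathlib's `μH[2]` is built from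
`diam ^ 2`, without the factor `π / 4`). -/
noncomputable def surfaceMeasure (A : Set E3) : Measure E3 :=
  ENNReal.ofReal (Real.pi / 4) • (μH[2] : Measure E3).restrict A

/-- The Fourier extension operator of the measure `σ`. -/
noncomputable def extension (σ : Measure E3) (f : E3 → ℂ) (x : E3) : ℂ :=
  ∫ ξ, f ξ * Complex.exp (2 * Real.pi * Complex.I * (⟪x, ξ⟫ : ℝ)) ∂σ

/-- The diagonal `L^p(σ) → L^p(ℝ³)` bound for the extension operator. -/
def ExtBound (σ : Measure E3) (p : ℝ) : Prop :=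
  ∃ C : ℝ≥0, ∀ f : E3 → ℂ, MemLp f (ENNReal.ofReal p) σ →
    eLpNorm (extension σ f) (ENNReal.ofReal p) volume ≤ C * eLpNorm f (ENNReal.ofReal p) σ

/-- The final statement: the restriction conjecture for all compact positively curved surfaces. -/
def Q1 : Prop :=
  ∀ S A : Set E3, PosCurved S → IsCompact A → A ⊆ S → ∀ p : ℝ, 3 < p →
    ExtBound (surfaceMeasure A) p

/-- The point of the graph of `h` above `y`. -/
noncomputable def graphPt (h : ℝ × ℝ → ℝ) (y : ℝ × ℝ) : E3 := !₂[y.1, y.2, h y]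

/-- Normalised phases: `h` is smooth on `ℝ²` and `h(y) = |y|²/2 + O(|y|³)`. -/
structure IsPhase (h : ℝ × ℝ → ℝ) : Prop where
  smooth : ContDiff ℝ ∞ h
  cube : ∃ C : ℝ, 0 ≤ C ∧ ∀ y : ℝ × ℝ, |h y - (y.1 ^ 2 + y.2 ^ 2) / 2| ≤ C * ‖y‖ ^ 3
  zero : h 0 = 0
  grad : fderiv ℝ h 0 = 0
  hess : ∀ v w : ℝ × ℝ, fderiv ℝ (fderiv ℝ h) 0 v w = v.1 * w.1 + v.2 * w.2

/-- The square `[-r, r]²`. -/
def square (r : ℝ) : Set (ℝ × ℝ) := Icc (-r) r ×ˢ Icc (-r) r

/-- The image of Lebesgue measure on the square `[-r, r]²` on the graph of `h`. -/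
noncomputable def graphMeasure (h : ℝ × ℝ → ℝ) (r : ℝ) : Measure E3 :=
  (volume.restrict (square r)).map (graphPt h)

/-- The input: the diagonal extension bound near the origin of every normalised graph. -/
def GraphBound : Prop :=
  ∀ h : ℝ × ℝ → ℝ, IsPhase h → ∃ r : ℝ, 0 < r ∧ ∀ p : ℝ, 3 < p → ExtBound (graphMeasure h r) p

end Vale.Agent.P122.G813
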